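import Vale.Agent.P287D.Api.Gen
import Vale.Agent.P287D.Gm.Gen

/-!
# P287D: the rows of the interface, last part
-/

namespace Vale.Agent.P287D.Api

theorem trm : Mm.TRM := trm_of gen.gm

end Vale.Agent.P287D.Api
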