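import Vale.Agent.P287D.Fg.Fgu
import Vale.Agent.P287D.Z.Zar
import Vale.Agent.P287D.Ba.Mod
import Vale.Agent.P287D.Ba.Hy
import Vale.Agent.P287D.Pr.NegA
import Vale.Agent.P287D.Gm.Ffs
import Vale.Agent.P287D.Cv.Rr
import Vale.Agent.P287D.Iso.Int

/-!
# P287D: the rows of the interface, first part
-/

namespace Vale.Agent.P287D.Api

theorem ffs : FFS := Gm.ffs

theorem mod : MOD := Ba.mod

theorem neg : NEG := Pr.neg_of res' (Pr.ISB.of mod)

theorem fgu : FGU := Ba.Fg.fgu res'

theorem zarh : ZARH := zarh_of mod neg fgu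

theorem zar : ZAR := zar_of zarh

theorem crv : CRV := Cv.crv

theorem iso : ISO := iso_of In.hy

end Vale.Agent.P287D.Api
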