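import Vale.Agent.P287D.Api.Int
import Vale.Agent.P287D.Ad.All
import Vale.Agent.P287D.Wp.One
import Vale.Agent.P287D.Pc.Ns
import Vale.Agent.P287D.Gf.Gen
import Vale.Agent.P287D.Gf.Vp
import Vale.Agent.P287D.Gm.Tr
import Vale.Agent.P287D.Sf.Row
import Vale.Agent.P287D.Mm.Run
import Vale.Agent.P287D.Mm.Mft

/-!
# P287D: the rows of the interface, third part
-/

namespace Vale.Agent.P287D.Api

theorem ftn : FTN := ftn_of res'

theorem wp1 : WP1 := wp1_of res' Ku.ukg

theorem cbf : CBF := wp1.cbf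

theorem uni : UNI := uni'

theorem gr : GR := Pg.gr_of Ku.extu res'

theorem g3b : G3b := P287D.g3b mod neg

theorem g5 : G5 := P287D.g5 ffs mod res' int pb g1b g2 g2b

theorem g6 : G6 := P287D.g6 mod res' vol pb g2 g2b g3 g3b

theorem ba : Gm.BA := fun _ _ _ _ hK _ => (big_mx_iff hK).1

theorem gtr : Gx.TR := Gm.gen_tr res' ba

theorem rows (L : Type) [Field L] [Algebra ℂ L] (h : FF L 2) : Sf.Rows L := Sf.rows h

theorem run : Mm.RUN := Mm.run ma

theorem min : Mm.MIN := Mm.min' ma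

theorem end' : Mm.END := Mm.end' ma

theorem mft : Mm.MFT := Mm.mft_of end'

theorem mfs : Mm.MFS := Mm.mfs_of mod neg end'

end Vale.Agent.P287D.Api
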