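import Vale.Agent.P287D.Api.Adj
import Vale.Agent.P287D.On.Fld
import Vale.Agent.P287D.Lk.Dim
import Vale.Agent.P287D.Lk.Geos
import Vale.Agent.P287D.Ge.Fin
import Vale.Agent.P287D.Oe.Red
import Vale.Agent.P287D.Ru.Main
import Vale.Agent.P287D.Lc.Sec
import Vale.Agent.P287D.Sk2

/-!
# P287D: the rows of the interface, fourth part
-/

namespace Vale.Agent.P287D.Api

theorem fld : FLD := fld'

theorem ga : GA := ⟨mod, res', neg, fld, ftn, zar, sep, rho⟩

theorem geo : GEO := Ge.geo_of ga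

theorem geos : GEOS := Lk.geos_of mod neg fld ftn geo

theorem dm : DIM := Lk.dim_of fld

theorem sark (h : LNK') : SARK' := sark_of' mod geos h

theorem oax : Oe.Ax :=
  ⟨ffs, mod, res', int, vol, neg, fld, pb, gd, iso, a1, a2, a3, a4, uni, g1, g1b, g2, g4, g5, g6,
    fun L _ _ h => rows L h⟩

theorem red : Oe.RED := Oe.red oax mfs

theorem sec : Lc.SEC := Lc.sec_of In.hy mod res' fld uni rul Ru.dgr

end Vale.Agent.P287D.Api
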