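import Vale.Agent.P287D.Api.Fld
import Vale.Agent.P287D.Sh.Ts
import Vale.Agent.P287D.Sr.Up
import Vale.Agent.P287D.Dp.St
import Vale.Agent.P287D.Gm.Trm
import Vale.Agent.P287D.Gm.Pt
import Vale.Agent.P287D.Pg.Trm

/-!
# P287D: the rows of the interface, fifth part
-/

namespace Vale.Agent.P287D.Api

theorem dax : Dp.Ax :=
  ⟨ffs, mod, res', int, vol, neg, fld, pb, gd, iso, ftn, g1, g1b, g2, g2b, g3, g4, g6,
    fun L _ _ h => rows L h, Sh.nak, Sh.hi0, Sh.nd', Sh.neg2', Sh.qf2, Sh.ts, Sh.gen2, Sr.rr2⟩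

/-- the row GEN.gm -/
def GGM : Prop := ForS fun n K _ _ => ∀ s : Finset K, 0 < dim (mx s) →
  ∃ (K' : Type) (_ : Field K') (_ : Algebra ℂ K') (φ : K →+* K') (c : ℕ), GM s φ ∧ FF K' n ∧
    0 < c ∧ (2 ≤ dim (mx s) → c = 1) ∧ ∀ β : Fin n → BD K, (∀ j, IsB n (β j)) →
      (∀ j : Fin n, j.1 ≠ 0 → β j ∈ Car K) →
      I (n + 1) K (Fin.snoc β (mx s)) = c * I n K' fun j => P287D.pb φ (β j)

theorem gen_of (h : GGM) : GEN :=
  ⟨gen_ex, gen_ff, gen_num ffs mod res' int pb gtr In.hy, gen_big g3b, gen_can, gen_orb,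
    gen_on mod res' vol pb g2 g2b g3 g3b, gtr, Gm.gen_trm res', Gm.gen_pt, h⟩

theorem trm_of (h : GGM) : Mm.TRM := Pg.trm_of (gen_of h) fld Sh.ts

end Vale.Agent.P287D.Api
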