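import Vale.Agent.P287D.Api.Zar
import Vale.Agent.P287D.Fg.Bpf
import Vale.Agent.P287D.In.All
import Vale.Agent.P287D.In.Vol
import Vale.Agent.P287D.Pb.Deg
import Vale.Agent.P287D.Cb.Mov
import Vale.Agent.P287D.Va.Alg
import Vale.Agent.P287D.Ge.Rho
import Vale.Agent.P287D.Rl.Mm

/-!
# P287D: the rows of the interface, second part
-/

namespace Vale.Agent.P287D.Api

theorem int : INT := int'

theorem vol : VOL := Ba.Vl.volA

theorem pb : PB := pb_of In.hy res' Cb.pb_hur

theorem gd : GD := Cb.gd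

theorem klk : KLK := Ba.Fg.klk

theorem sep' : Loq.SEP := Loq.sep_of balg ffs res'

theorem sep : SEP := fun n K _ _ hK Λ Q R a b c => (sep' n K hK Λ Q R a b c).2

theorem rho : RHO := rho_of mod neg

theorem rel : Mm.REL := Rl.mm_rel res'

theorem ma : Mm.MA := ⟨mod, res', neg, sep, zar, rel⟩

end Vale.Agent.P287D.Api
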